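import Vale.Agent.P167.H592.S.Fra
import Vale.Agent.P167.H592.R.DobL

/-!
# P167, general `q`, START: closing the holes of a frame

`clH`: the squares outside of the enlarged polygon at the boundary sites in the holes; `clS`: the
colours. The closed frame gives the Dobrushin boundary conditions (`dob_cl`).
-/

namespace Vale.Agent.P167.Enl

open Finset
open Vale.Agent.P167.Top
open Vale.Agent.P167.BR (sites)
open Vale.Agent.P167.FK (Bq Good)
open Vale.Agent.P167.E6 (IsPolygon Encloses dir face)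
open Vale.Agent.P167.XDL (bS mem_bS)
open Vale.Agent.P167.H718 (Dob exists_bd fin4_cyc)
open Vale.Agent.P167.H825 (enl pdir Marks FlowIn bsite)
open Vale.Agent.P167.H825.Q (Row Bc frow chordless_qN stτ osq frow_τ)
open Vale.Agent.P167.H680.T (uI frows mem_uI)
open Vale.Agent.P167.H662 (hsite)
open Vale.Agent.P167.H199 (Gap)
open Vale.Agent.P167.H398.Q (hB Frz)

variable {l : ℕ} {p : ZMod l → ℤ × ℤ} {n t : ℕ} {S₀ : Finset (ℤ × ℤ)} {Q : Marks} {bc : Bc}
  {d : ℕ} {θ β : ℝ}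

/-! ### the squares at the boundary sites -/

theorem qN_kOf {i σ : ℕ} (hi : i < l) (ht : t < n) (hσ : σ < n) :
    qN p n t ((kOf l n t i σ : ℕ) : ZMod (l * n)) = vp p n i σ := by
  have : NeZero l := ⟨by omega⟩
  have hn : 0 < n := by omega
  have h1 := kOf_add (l := l) (n := n) (σ := σ) hi ht
  rw [qN_eq hn h1, PN_lin hn hσ]
  rfl

/-- The boundary sites. -/
theorem site_bd (hp : IsPolygon p) (hD : Encloses p S₀) (ht : t < n) {s : ℤ × ℤ}
    (hs : s ∈ sites (enl S₀ n)) {r : Fin 4} (hr : face s r ∉ enl S₀ n) :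
    ∃ i σ : ℕ, i < l ∧ σ < n ∧ s = vp p n i σ := by
  have hn : 0 < n := by omega
  have hq := isPolygon_qN hn hp t
  obtain ⟨j, hj⟩ := exists_bd hq (encloses_qN hn hp hD t) hs hr
  have hln : NeZero (l * n) := ⟨by have := hq.1; omega⟩
  obtain ⟨i, σ, hi, hσ, h⟩ := exists_kOf ht (ZMod.val_lt j)
  refine ⟨i, σ, hi, hσ, ?_⟩
  rw [← qN_kOf hi ht hσ, ← h, ZMod.natCast_zmod_val]
  exact hj.symm

theorem face_back2 (z : ℤ × ℤ) (r : Fin 4) (σ : ℤ) :
    face (vz z r σ) (r - 1 - 1 - 1) = face (vz z r (σ - 1)) r := by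
  obtain ⟨h0, h1, h2, h3⟩ := vz_eq z (σ - 1)
  obtain ⟨k0, k1, k2, k3⟩ := vz_eq z σ
  have f0 : ∀ v : ℤ × ℤ, face v 0 = v + (0, 0) := fun _ => rfl
  have f1 : ∀ v : ℤ × ℤ, face v 1 = v + (-1, 0) := fun _ => rfl
  have f2 : ∀ v : ℤ × ℤ, face v 2 = v + (-1, -1) := fun _ => rfl
  have f3 : ∀ v : ℤ × ℤ, face v 3 = v + (0, -1) := fun _ => rfl
  rcases fin4_cases r with rfl | rfl | rfl | rfl
  · rw [h0, k0, m01, m31, m21, f1, f0]; simp; ring
  · rw [h1, k1, m11, m01, m31, f2, f1]; simp; ring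
  · rw [h2, k2, m21, m11, m01, f3, f2]; simp; ring
  · rw [h3, k3, m31, m21, m11, f0, f3]; simp; ring

/-- The squares outside of the domain at an inner site of a side. -/
theorem face_out (hp : IsPolygon p) (hD : Encloses p S₀) {i σ : ℕ} (hi : i < l) (h0 : 0 < σ)
    (hσ : σ < n) {r : Fin 4} (hr : face (vp p n i σ) r ∉ enl S₀ n) :
    face (vp p n i σ) r = op p n i σ ∨ face (vp p n i σ) r = op p n i ((σ - 1 : ℕ) : ℤ) := by
  have e : ((σ - 1 : ℕ) : ℤ) = (σ : ℤ) - 1 := by omega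
  rcases fin4_cyc r (pdir p i) with h | h | h | h
  · rw [h] at hr
    exact absurd (ip_in hp hD hi hσ) hr
  · left
    rw [h]
    rfl
  · right
    rw [h, e]
    exact face_back _ _ _
  · rw [h] at hr
    have h1 : face (vp p n i σ) (pdir p i - 1 - 1 - 1) = face (vp p n i ((σ : ℤ) - 1)) (pdir p i) :=
      face_back2 _ _ _
    rw [h1, ← e] at hr
    exact absurd (ip_in hp hD hi (σ := σ - 1) (by omega)) hr

/-! ### the steps in the holes -/

/-- The end of a part of a side is a mark. -/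
theorem next_mark (hp : IsPolygon p) (hQ : Q.Ok) {i j : ℕ} (hi : i < l) (hj : j ≤ Q.m) :
    ∃ z : Fin l × Fin (Q.m + 1), hsite p Q n z = vp p n i (⌊Q.θ i (j + 1) * n⌋₊ : ℤ) := by
  by_cases h : j < Q.m
  · exact ⟨(⟨i, hi⟩, ⟨j + 1, by omega⟩), rfl⟩
  · have e : j = Q.m := by omega
    rw [e, fl_one hQ]
    have hl : 0 < l := by omega
    by_cases h6 : i + 1 < l
    · refine ⟨(⟨i + 1, h6⟩, 0), ?_⟩
      rw [← vp_pB hp hQ]
      have h7 : iB l ((⟨i + 1, h6⟩, 0) : Fin l × Fin (Q.m + 1)) = i := by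
        unfold iB
        simp
      rw [h7, pB_zero hQ rfl]
    · refine ⟨(⟨0, hl⟩, 0), ?_⟩
      rw [← vp_pB hp hQ]
      have h7 : iB l ((⟨0, hl⟩, 0) : Fin l × Fin (Q.m + 1)) = i := by
        unfold iB
        simp
        omega
      rw [h7, pB_zero hQ rfl]

/-- The steps off the rows are near a mark. -/
theorem gap_step (hp : IsPolygon p) (hQ : Q.Ok) {i τ : ℕ} (hi : i < l) (hτ : τ < n) :
    (∃ y : Fin l × Fin (Q.m + 1), (y.1 : ℕ) = i ∧ sW p n Q d y.1 y.2 ≤ τ ∧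
      τ < eW p n Q d y.1 y.2) ∨
    ∃ x : Fin l × Fin (Q.m + 1), nm (vp p n i τ - hsite p Q n x) ≤ d := by
  obtain ⟨j, hj, h1, h2⟩ : ∃ j ≤ Q.m, ⌊Q.θ i j * n⌋₊ ≤ τ ∧ τ < ⌊Q.θ i (j + 1) * n⌋₊ := by
    by_contra hcon
    push Not at hcon
    have h : ∀ j ≤ Q.m + 1, ⌊Q.θ i j * n⌋₊ ≤ τ := by
      intro j
      induction j with
      | zero => intro _; rw [fl_zero hQ]; exact Nat.zero_le _
      | succ j ih => intro h; exact hcon j (by omega) (ih (by omega))
    have h3 := h (Q.m + 1) le_rfl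
    rw [fl_one hQ] at h3
    omega
  have s1 := le_rnd ((n : ℤ) • p i) (bsite p Q n) (⌊Q.θ i j * n⌋₊ + d)
  have s2 := le_rnd ((n : ℤ) • p i) (bsite p Q n) (⌊Q.θ i (j + 1) * n⌋₊ - d)
  change _ ≤ sW p n Q d i j ∧ sW p n Q d i j ≤ _ at s1
  change _ ≤ eW p n Q d i j ∧ eW p n Q d i j ≤ _ at s2
  by_cases h3 : sW p n Q d i j ≤ τ
  · by_cases h4 : τ < eW p n Q d i j
    · exact Or.inl ⟨(⟨i, hi⟩, ⟨j, by omega⟩), rfl, h3, h4⟩
    · right
      obtain ⟨z, hz⟩ := next_mark (n := n) hp hQ hi hj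
      refine ⟨z, ?_⟩
      rw [hz, vp_same, abs_le]
      omega
  · right
    refine ⟨(⟨i, hi⟩, ⟨j, by omega⟩), ?_⟩
    have e5 : hsite p Q n ((⟨i, hi⟩, ⟨j, by omega⟩) : Fin l × Fin (Q.m + 1)) =
      vp p n i (⌊Q.θ i j * n⌋₊ : ℤ) := rfl
    rw [e5, vp_same, abs_le]
    omega

/-! ### the squares and colours of the closed holes -/

/-- The colour of a mark. -/
noncomputable def wc (l n : ℕ) (Q : Marks) (bc : Bc) (x : Fin l × Fin (Q.m + 1)) : Bool :=
  decide (¬ kOf l n (tB n Q) x.1 (pA n Q x) < bc.ka l n (tB n Q))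

open Classical in
/-- The squares which close the holes. -/
noncomputable def clH (p : ZMod l → ℤ × ℤ) (Q : Marks) (n d : ℕ) (S₀ : Finset (ℤ × ℤ)) :
    Finset (ℤ × ℤ) := (hB p Q n (d + 4)).filter fun v => v ∉ enl S₀ n ∧ v ∉ frmQ p Q n d ∧
  ∃ w ∈ sites (enl S₀ n), ∃ r, face w r = v

open Classical in
/-- The colours of the closed frame. -/
noncomputable def clS (p : ZMod l → ℤ × ℤ) (Q : Marks) (n d : ℕ) (bc : Bc) (σ : Cfg) : Cfg :=
  fun v => if v ∈ frmQ p Q n d then σ v else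
    decide (∃ x : Fin l × Fin (Q.m + 1), v ∈ Bq (hsite p Q n x) (d + 4) ∧ wc l n Q bc x = true)

theorem clH_sub : clH p Q n d S₀ ⊆ hB p Q n (d + 4) := by
  classical
  exact filter_subset _ _

theorem mem_clH {v : ℤ × ℤ} : v ∈ clH p Q n d S₀ ↔ v ∈ hB p Q n (d + 4) ∧ v ∉ enl S₀ n ∧
    v ∉ frmQ p Q n d ∧ ∃ w ∈ sites (enl S₀ n), ∃ r, face w r = v := by
  classical
  unfold clH
  rw [mem_filter]

theorem clH_disj : Disjoint (clH p Q n d S₀) (enl S₀ n) := by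
  rw [Finset.disjoint_left]
  exact fun v hv => (mem_clH.1 hv).2.1

theorem clH_disj' : Disjoint (clH p Q n d S₀) (frmQ p Q n d) := by
  rw [Finset.disjoint_left]
  exact fun v hv => (mem_clH.1 hv).2.2.1

theorem clS_frm {σ : Cfg} {v : ℤ × ℤ} (h : v ∈ frmQ p Q n d) : clS p Q n d bc σ v = σ v := by
  unfold clS
  rw [if_pos h]

section close

variable (hp : IsPolygon p) (hD : Encloses p S₀) (hQ : Q.Ok) {g δ : ℝ} (hg : Gap Q l g)
  (hδ : 0 < δ) (hδg : 4 * δ ≤ g) (hn : 16 ≤ δ * n)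

include hQ hg hδg hn in
theorem gn_big (hl : 0 < l) : 64 ≤ g * n ∧ (⌊δ * n⌋₊ : ℝ) ≤ g * n / 4 ∧ g ≤ 1 ∧ 16 ≤ ⌊δ * n⌋₊ ∧
    0 < n := by
  have hn0 : (0 : ℝ) ≤ n := Nat.cast_nonneg n
  have h1 : 4 * δ * n ≤ g * n := mul_le_mul_of_nonneg_right hδg hn0
  have h2 : (⌊δ * n⌋₊ : ℝ) ≤ δ * n := Nat.floor_le (by linarith)
  refine ⟨by linarith, by linarith, ?_, Nat.le_floor (by push_cast; linarith), ?_⟩
  · have a1 := hg.1 0 hl 0 (by omega)
    have a2 := theta_nonneg hQ 0 (j := 0) (by omega)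
    have a3 := theta_le_one hQ 0 (j := 0 + 1) (by omega)
    linarith
  · rcases Nat.eq_zero_or_pos n with h | h
    · rw [h] at hn; norm_num at hn
    · exact h

include hp hQ hn in
/-- The rows are far from the vertices. -/
theorem frm_vert {i : ℕ} (hi : i < l) {v : ℤ × ℤ} (hv : v ∈ frmQ p Q n ⌊δ * n⌋₊)
    (hg : Gap Q l g) (hδ : 0 < δ) (hδg : 4 * δ ≤ g) :
    1 < nm (v - vp p n i 0) := by
  obtain ⟨-, -, -, b4, b5⟩ := gn_big hQ hg hδg hn (by omega)
  obtain ⟨y, τ, h1, h2, rfl⟩ := mem_frmQ.1 hv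
  have hrow := rows_marks (p := p) hQ hg hδ hδg hn
  have a1 := hrow.lo y
  have a2 := hrow.hi y
  have a3 := op_near (p := p) (n := n) y.1 τ
  have a4 : 3 ≤ nm (vp p n y.1 τ - vp p n i 0) := by
    by_cases hy : (y.1 : ℕ) = i
    · rw [hy, vp_same, sub_zero, le_abs]
      left
      omega
    · exact vp_far hp y.1.2 hi hy le_rfl (by omega) (by omega) (by omega) (by omega)
  have a5 := nm_tri (vp p n y.1 τ) (op p n y.1 τ) (vp p n i 0)
  rw [nm_sub_comm (vp p n y.1 τ) (op p n y.1 τ)] at a5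
  omega

include hp hD hQ hg hδg hn in
/-- **The squares outside at the boundary sites** are in the closed frame. -/
theorem cl_cov {v w : ℤ × ℤ} (hv : v ∉ enl S₀ n) (hw : w ∈ sites (enl S₀ n)) {r : Fin 4}
    (hr : face w r = v) : v ∈ frmQ p Q n ⌊δ * n⌋₊ ∪ clH p Q n ⌊δ * n⌋₊ S₀ := by
  have hl : 0 < l := by have := hp.1; omega
  obtain ⟨b1, b2, b3, b4, b5⟩ := gn_big hQ hg hδg hn hl
  rw [mem_union]
  by_cases hf : v ∈ frmQ p Q n ⌊δ * n⌋₊
  · exact Or.inl hf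
  right
  refine mem_clH.2 ⟨?_, hv, hf, w, hw, r, hr⟩
  rw [← hr] at hv
  obtain ⟨i, σ, hi, hσ, rfl⟩ := site_bd hp hD (tB_lt hQ b5) hw hv
  rcases Nat.eq_zero_or_pos σ with h0 | h0
  · -- a vertex
    refine mem_hB.2 ⟨(⟨i, hi⟩, 0), Bq_of ?_⟩
    have e : hsite p Q n ((⟨i, hi⟩, 0) : Fin l × Fin (Q.m + 1)) = vp p n i (0 : ℤ) := by
      show vp p n i (⌊Q.θ i 0 * n⌋₊ : ℤ) = _
      rw [fl_zero hQ]
      rfl
    rw [e, ← hr, h0]
    have := face_near (vp p n i ((0 : ℕ) : ℤ)) r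
    have e2 : vp p n i ((0 : ℕ) : ℤ) = vp p n i 0 := rfl
    rw [e2] at this ⊢
    omega
  · have key : ∀ τ : ℕ, τ < n → v = op p n i τ → v ∈ hB p Q n (⌊δ * n⌋₊ + 4) := by
      intro τ hτ hvτ
      rcases gap_step (d := ⌊δ * n⌋₊) (p := p) hp hQ hi hτ with ⟨y, hy, k1, k2⟩ | ⟨x, hx⟩
      · exfalso
        refine hf (mem_frmQ.2 ⟨y, τ, k1, k2, ?_⟩)
        rw [hvτ, hy]
      · refine mem_hB.2 ⟨x, Bq_of ?_⟩
        have a1 := op_near (p := p) (n := n) i τ
        have a2 := nm_tri v (vp p n i τ) (hsite p Q n x)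
        rw [hvτ] at a2 ⊢
        omega
    rcases face_out hp hD hi h0 hσ hv with h | h
    · exact key σ hσ (hr.symm.trans h)
    · exact key (σ - 1) (by omega) (hr.symm.trans h)

variable {σ₀ : Cfg} (hσ₀ : Frz (frows θ β p Q n ⌊δ * n⌋₊ bc) σ₀)

include hp hD hQ hg hδ hδg hn hσ₀ in
/-- The frozen colours of the rows. -/
theorem frz_col (hb : bc.Ok l Q) {i τ : ℕ} (hi : i < l) (hτ : τ < n)
    (h : op p n i τ ∈ frmQ p Q n ⌊δ * n⌋₊) :
    σ₀ (op p n i τ) = decide (¬ kOf l n (tB n Q) i τ < bc.ka l n (tB n Q)) := by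
  have hl : 0 < l := by omega
  obtain ⟨b1, b2, b3, b4, b5⟩ := gn_big hQ hg hδg hn hl
  obtain ⟨y, τ', h1, h2, h3⟩ := mem_frmQ.1 h
  have hrow := rows_marks (p := p) hQ hg hδ hδg hn
  have a1 := hrow.lo y
  have a2 := hrow.hi y
  obtain ⟨k1, k2⟩ := op_inj hp y.1.2 hi (σ' := τ) (by omega) (by omega) (by omega) (by omega)
    h3.symm
  have k2' : τ' = τ := by omega
  subst k2'
  have k3 : op p n i τ' ∈ (frows θ β p Q n ⌊δ * n⌋₊ bc y).I := by
    show op p n i τ' ∈ (frow θ β p Q n ⌊δ * n⌋₊ bc y.1 y.2).I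
    rw [frow_I]
    exact mem_rowP.2 ⟨τ', h1, h2, h3⟩
  rw [hσ₀ y _ k3]
  have e7 := frow_τ (θ := θ) (β := β) hp hD hQ hb (by omega : 1 ≤ ⌊δ * n⌋₊) y.1.isLt
    (Nat.lt_succ_iff.1 y.2.isLt) h1 h2
  have e8 : osq ((n : ℤ) • p ((y.1 : ℕ) : ZMod l)) (pdir p y.1) τ' = op p n y.1 τ' := rfl
  rw [e8] at e7
  show decide ((frow θ β p Q n ⌊δ * n⌋₊ bc y.1 y.2).τ (op p n i τ') = -1) = _
  rw [h3, e7, k1]
  unfold stτ
  by_cases hk : kOf l n (tB n Q) i τ' < bc.ka l n (tB n Q)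
  · rw [if_pos hk]
    simp only [hk, not_true, decide_false, decide_eq_false_iff_not]
    norm_num
  · rw [if_neg hk]
    simp [hk]

include hp hQ hg hδ hδg hn in
/-- The boxes of the holes see one mark. -/
theorem box_mark {x y : Fin l × Fin (Q.m + 1)} {v : ℤ × ℤ}
    (hx : v ∈ Bq (hsite p Q n x) (⌊δ * n⌋₊ + 4)) (hy : v ∈ Bq (hsite p Q n y) (⌊δ * n⌋₊ + 4)) :
    x = y := by
  have hl : 0 < l := by have := hp.1; omega
  obtain ⟨b1, b2, b3, b4, b5⟩ := gn_big hQ hg hδg hn hl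
  by_contra hne
  have h := box_disj (R := (⌊δ * n⌋₊ : ℤ) + 4) hp hQ hg (n := n) (by push_cast; linarith) hne
  exact (Finset.disjoint_left.1 h) hx hy

include hp hD hQ hg hδ hδg hn hσ₀ in
/-- **The colours of the closed frame at the steps.** -/
theorem cl_step (hb : bc.Ok l Q) (hbg : BGap l Q g bc) {i τ : ℕ} (hi : i < l) (hτ : τ < n)
    (h : op p n i τ ∈ frmQ p Q n ⌊δ * n⌋₊ ∪ clH p Q n ⌊δ * n⌋₊ S₀) :
    clS p Q n ⌊δ * n⌋₊ bc σ₀ (op p n i τ) =
      decide (¬ kOf l n (tB n Q) i τ < bc.ka l n (tB n Q)) := by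
  classical
  have hl : 0 < l := by omega
  obtain ⟨b1, b2, b3, b4, b5⟩ := gn_big hQ hg hδg hn hl
  rw [mem_union] at h
  by_cases hf : op p n i τ ∈ frmQ p Q n ⌊δ * n⌋₊
  · rw [clS_frm hf]
    exact frz_col hp hD hQ hg hδ hδg hn hσ₀ hb hi hτ hf
  · have hH := h.resolve_left hf
    obtain ⟨x, hx⟩ := mem_hB.1 (mem_clH.1 hH).1
    have h1 : nm (vp p n i τ - hsite p Q n x) ≤ (⌊δ * n⌋₊ : ℤ) + 5 := by
      have a1 := op_near (p := p) (n := n) i τ
      have a2 := nm_tri (vp p n i τ) (op p n i τ) (hsite p Q n x)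
      have a3 := mem_Bq' hx
      rw [nm_sub_comm (vp p n i τ) (op p n i τ)] at a2
      omega
    have h2 := window_col (m := (⌊δ * n⌋₊ : ℤ) + 5) hp hQ hg hbg (by push_cast; linarith) hi hτ h1
    unfold clS
    rw [if_neg hf]
    change _ ↔ kOf l n (tB n Q) x.1 (pA n Q x) < _ at h2
    rw [decide_eq_decide, h2]
    constructor
    · rintro ⟨y, hy, hw⟩
      rw [box_mark hp hQ hg hδ hδg hn hx hy]
      exact of_decide_eq_true hw
    · intro h3
      exact ⟨x, hx, decide_eq_true h3⟩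

include hp hQ hg hδ hδg hn in
/-- The colours of the closed frame at the vertices. -/
theorem cl_vert {i : ℕ} (hi : i < l) {r : Fin 4} {v : ℤ × ℤ} (hr : face (vp p n i 0) r = v) :
    clS p Q n ⌊δ * n⌋₊ bc σ₀ v = decide (¬ kOf l n (tB n Q) i 0 < bc.ka l n (tB n Q)) := by
  classical
  have hl : 0 < l := by omega
  obtain ⟨b1, b2, b3, b4, b5⟩ := gn_big hQ hg hδg hn hl
  have hnear : nm (v - vp p n i 0) ≤ 1 := by
    rw [← hr]
    exact face_near _ _
  have hf : v ∉ frmQ p Q n ⌊δ * n⌋₊ := fun hf => by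
    have := frm_vert hp hQ hn hi hf hg hδ hδg
    omega
  have e : hsite p Q n ((⟨i, hi⟩, 0) : Fin l × Fin (Q.m + 1)) = vp p n i (0 : ℤ) := by
    show vp p n i (⌊Q.θ i 0 * n⌋₊ : ℤ) = _
    rw [fl_zero hQ]
    rfl
  have hx : v ∈ Bq (hsite p Q n ((⟨i, hi⟩, 0) : Fin l × Fin (Q.m + 1))) (⌊δ * n⌋₊ + 4) := by
    rw [e]
    exact Bq_of (by omega)
  have hwc : wc l n Q bc ((⟨i, hi⟩, 0) : Fin l × Fin (Q.m + 1)) =
      decide (¬ kOf l n (tB n Q) i 0 < bc.ka l n (tB n Q)) := by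
    unfold wc
    rw [pA_zero hQ rfl]
  unfold clS
  rw [if_neg hf, ← hwc]
  by_cases h : wc l n Q bc ((⟨i, hi⟩, 0) : Fin l × Fin (Q.m + 1)) = true
  · rw [h, decide_eq_true_iff]
    exact ⟨_, hx, h⟩
  · have h' : wc l n Q bc ((⟨i, hi⟩, 0) : Fin l × Fin (Q.m + 1)) = false := by simpa using h
    rw [h', decide_eq_false_iff_not]
    rintro ⟨y, hy, hw⟩
    rw [← box_mark hp hQ hg hδ hδg hn hx hy] at hw
    exact h hw

include hp hD hQ hg hδ hδg hn hσ₀ in
/-- **The closed frame**: every configuration which has the colours of the closed frame is a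
Dobrushin boundary condition of the enlarged polygon. -/
theorem dob_cl (hb : bc.Ok l Q) (hbg : BGap l Q g bc) {η : Cfg} (hη : Good η)
    (h : ∀ v ∈ frmQ p Q n ⌊δ * n⌋₊ ∪ clH p Q n ⌊δ * n⌋₊ S₀,
      η v = clS p Q n ⌊δ * n⌋₊ bc σ₀ v) :
    Dob η (enl S₀ n) (qN p n (tB n Q)) (bc.ka l n (tB n Q)) := by
  have hl : 0 < l := by have := hp.1; omega
  obtain ⟨b1, b2, b3, b4, b5⟩ := gn_big hQ hg hδg hn hl
  have ht := tB_lt (n := n) hQ b5
  have hcov : ∀ {v w : ℤ × ℤ} {r : Fin 4}, v ∉ enl S₀ n → w ∈ sites (enl S₀ n) →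
      face w r = v → η v = clS p Q n ⌊δ * n⌋₊ bc σ₀ v := fun h1 h2 h3 =>
    h _ (cl_cov hp hD hQ hg hδg hn h1 h2 h3)
  have hstep : ∀ {i τ : ℕ}, i < l → τ < n → ∀ {w : ℤ × ℤ} {r : Fin 4},
      w ∈ sites (enl S₀ n) → face w r = op p n i τ →
      η (op p n i τ) = decide (¬ kOf l n (tB n Q) i τ < bc.ka l n (tB n Q)) := by
    intro i τ hi hτ w r hw hr
    have h1 := op_out hp hD hi hτ
    have h2 := cl_cov hp hD hQ hg hδg hn h1 hw hr
    rw [h _ h2]
    exact cl_step hp hD hQ hg hδ hδg hn hσ₀ hb hbg hi hτ h2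
  -- the boundary sites are sites of the domain
  have hsite : ∀ {i σ : ℕ}, i < l → σ < n → vp p n i σ ∈ sites (enl S₀ n) := by
    intro i σ hi hσ
    have h1 := ip_in hp hD hi hσ
    rw [BR.mem_sites]
    refine ⟨_, h1, ?_, ?_⟩
    · obtain ⟨a, b⟩ := vp p n i σ
      have f0 : face (a, b) 0 = (a + 0, b + 0) := rfl
      have f1 : face (a, b) 1 = (a + -1, b + 0) := rfl
      have f2 : face (a, b) 2 = (a + -1, b + -1) := rfl
      have f3 : face (a, b) 3 = (a + 0, b + -1) := rfl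
      rcases fin4_cases (pdir p i) with hr | hr | hr | hr <;> rw [hr] <;>
        simp only [f0, f1, f2, f3] <;> omega
    · obtain ⟨a, b⟩ := vp p n i σ
      have f0 : face (a, b) 0 = (a + 0, b + 0) := rfl
      have f1 : face (a, b) 1 = (a + -1, b + 0) := rfl
      have f2 : face (a, b) 2 = (a + -1, b + -1) := rfl
      have f3 : face (a, b) 3 = (a + 0, b + -1) := rfl
      rcases fin4_cases (pdir p i) with hr | hr | hr | hr <;> rw [hr] <;>
        simp only [f0, f1, f2, f3] <;> omega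
  refine dob_of_local (isPolygon_qN b5 hp _) (encloses_qN b5 hp hD _)
    (chordless_qN hp (by
      have : (2 : ℝ) ≤ n := by nlinarith
      exact_mod_cast this) _) hη ?_ ?_
  · intro j hj hj' r hr
    obtain ⟨i, σ, hi, hσ, rfl⟩ := exists_kOf ht hj'
    rw [qN_kOf hi ht hσ] at hr ⊢
    rcases Nat.eq_zero_or_pos σ with h0 | h0
    · subst h0
      have e2 : vp p n i ((0 : ℕ) : ℤ) = vp p n i 0 := rfl
      rw [hcov hr (hsite hi hσ) rfl, cl_vert hp hQ hg hδ hδg hn hi (r := r) (by rw [e2])]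
      simp only [decide_eq_true_eq]
      omega
    · rcases face_out hp hD hi h0 hσ hr with h1 | h1
      · rw [h1, hstep hi hσ (hsite hi hσ) h1]
        simp only [decide_eq_true_eq]
        omega
      · rw [h1, hstep hi (by omega) (hsite hi hσ) h1]
        simp only [decide_eq_true_eq]
        have h2 : kOf l n (tB n Q) i (σ - 1) + 1 = kOf l n (tB n Q) i σ := by
          unfold kOf at hj ⊢
          split_ifs at hj ⊢ <;> omega
        omega
  · intro s hs r hr hrt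
    obtain ⟨i, σ, hi, hσ, rfl⟩ := site_bd hp hD ht hs hr
    have hk := kOf_lt hi hσ ht
    rcases Nat.eq_zero_or_pos σ with h0 | h0
    · subst h0
      have e2 : vp p n i ((0 : ℕ) : ℤ) = vp p n i 0 := rfl
      rw [hcov hr hs rfl, cl_vert hp hQ hg hδ hδg hn hi (r := r) (by rw [e2])] at hrt
      simp only [decide_eq_true_eq] at hrt
      exact ⟨kOf l n (tB n Q) i 0, by omega, hk.le, qN_kOf hi ht hσ⟩
    · rcases face_out hp hD hi h0 hσ hr with h1 | h1
      · rw [h1, hstep hi hσ hs h1] at hrt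
        simp only [decide_eq_true_eq] at hrt
        exact ⟨kOf l n (tB n Q) i σ, by omega, hk.le, qN_kOf hi ht hσ⟩
      · rw [h1, hstep hi (by omega) hs h1] at hrt
        simp only [decide_eq_true_eq] at hrt
        by_cases hw : i * n + σ = tB n Q
        · refine ⟨l * n, ?_, le_rfl, ?_⟩
          · have := kOf_lt hi (show σ - 1 < n by omega) ht
            omega
          · rw [← qN_kOf hi ht hσ]
            congr 1
            rw [ZMod.natCast_self]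
            unfold kOf
            rw [if_pos hw.ge, hw, Nat.sub_self, Nat.cast_zero]
        · have h2 : kOf l n (tB n Q) i (σ - 1) + 1 = kOf l n (tB n Q) i σ := by
            have h3 : n ≤ l * n := Nat.le_mul_of_pos_left n hl
            unfold kOf
            split_ifs <;> omega
          exact ⟨kOf l n (tB n Q) i σ, by omega, hk.le, qN_kOf hi ht hσ⟩

include hp hD hQ hg hδ hδg hn hσ₀ in
/-- The closed frame has one colour near a mark. -/
theorem cl_box (hb : bc.Ok l Q) (hbg : BGap l Q g bc) {R : ℤ} (hR : (2 * R : ℝ) + 4 < g * n)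
    (x : Fin l × Fin (Q.m + 1)) {v : ℤ × ℤ}
    (hv : v ∈ frmQ p Q n ⌊δ * n⌋₊ ∪ clH p Q n ⌊δ * n⌋₊ S₀)
    (hx : v ∈ Bq (hsite p Q n x) R) (hR4 : (⌊δ * n⌋₊ : ℤ) + 4 ≤ R) :
    clS p Q n ⌊δ * n⌋₊ bc σ₀ v = wc l n Q bc x := by
  classical
  have hl : 0 < l := by have := hp.1; omega
  obtain ⟨b1, b2, b3, b4, b5⟩ := gn_big hQ hg hδg hn hl
  by_cases hf : v ∈ frmQ p Q n ⌊δ * n⌋₊
  · rw [clS_frm hf]
    obtain ⟨y, τ, h1, h2, rfl⟩ := mem_frmQ.1 hf
    have hτ := lt_n hQ (by omega : 1 ≤ ⌊δ * n⌋₊) (Nat.lt_succ_iff.1 y.2.isLt) h1 h2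
    rw [frz_col hp hD hQ hg hδ hδg hn hσ₀ hb y.1.2 hτ hf]
    have h3 : nm (vp p n y.1 τ - hsite p Q n x) ≤ R + 1 := by
      have a1 := op_near (p := p) (n := n) y.1 τ
      have a2 := nm_tri (vp p n y.1 τ) (op p n y.1 τ) (hsite p Q n x)
      have a3 := mem_Bq' hx
      rw [nm_sub_comm (vp p n y.1 τ) (op p n y.1 τ)] at a2
      omega
    have h4 := window_col (m := R + 1) hp hQ hg hbg (by push_cast; linarith) y.1.2 hτ h3
    unfold wc
    rw [decide_eq_decide, h4]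
    rfl
  · have hH := (mem_union.1 hv).resolve_left hf
    obtain ⟨y, hy⟩ := mem_hB.1 (mem_clH.1 hH).1
    have hxy : x = y := by
      by_contra hne
      have h := box_disj (R := R) hp hQ hg (n := n) (by linarith) hne
      refine (Finset.disjoint_left.1 h) hx ?_
      unfold Bq at hy ⊢
      rw [mem_product, mem_Ico, mem_Ico] at hy ⊢
      omega
    subst hxy
    unfold clS
    rw [if_neg hf]
    by_cases h : wc l n Q bc x = true
    · rw [h, decide_eq_true_iff]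
      exact ⟨_, hy, h⟩
    · have h' : wc l n Q bc x = false := by simpa using h
      rw [h', decide_eq_false_iff_not]
      rintro ⟨y', hy', hw⟩
      rw [← box_mark hp hQ hg hδ hδg hn hy hy'] at hw
      exact h hw

end close

end Vale.Agent.P167.Enl
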