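import Vale.Agent.P167.H592.S.Close
import Vale.Agent.P167.H592.T.OneF
import Vale.Agent.P167.H945.Q.HGeo
import Vale.Agent.P167.H398.Q.ODefs

/-!
# P167, general `q`, START: the centres of the rows of the frame

The tips of the rows are next to the marks (`ctr_tip`), the special points (base point, junction) are
far from the marks, from the other rows and from each other (`ctr_mark`, `ctr_row`, `ctr_ctr`).
-/

namespace Vale.Agent.P167.Enl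

open Finset
open Vale.Agent.P167.FK (Bq Good)
open Vale.Agent.P167.E6 (IsPolygon Encloses dir face)
open Vale.Agent.P167.H825 (enl pdir Marks FlowIn bsite epos ptau)
open Vale.Agent.P167.H825.Q (Row Bc frow stτ stΦ osq srow srow_sq srow_L frow_eq jpos ka_kOf)
open Vale.Agent.P167.H680.T (uI frows mem_uI sq_mem)
open Vale.Agent.P167.H662 (hsite)
open Vale.Agent.P167.H199 (Gap)
open Vale.Agent.P167.H398.Q (hB Frz bcol)
open Vale.Agent.P167.H945.Q (ctr Plain Sp ctr_mem ctr_sep1)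

variable {l : ℕ} {p : ZMod l → ℤ × ℤ} {n : ℕ} {S₀ : Finset (ℤ × ℤ)} {Q : Marks} {bc : Bc}
  {d : ℕ} {θ β : ℝ}

/-! ### the centres as squares of the steps -/

theorem idx_first (r : Fin 4) {s e : ℕ} (h : s < e) :
    (idx r s e s = 0 ∧ idx r s e (e - 1) = e - s - 1) ∨
    (idx r s e (e - 1) = 0 ∧ idx r s e s = e - s - 1) := by
  unfold idx
  split_ifs
  · left; omega
  · right; omega

/-- The two tips are the squares of the first and of the last step. -/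
theorem ctr_tips {i j : ℕ} (h : sW p n Q d i j < eW p n Q d i j) :
    (ctr (frow θ β p Q n d bc i j) 0 = op p n i (sW p n Q d i j : ℕ) ∧
      ctr (frow θ β p Q n d bc i j) 1 = op p n i ((eW p n Q d i j - 1 : ℕ) : ℤ)) ∨
    (ctr (frow θ β p Q n d bc i j) 0 = op p n i ((eW p n Q d i j - 1 : ℕ) : ℤ) ∧
      ctr (frow θ β p Q n d bc i j) 1 = op p n i (sW p n Q d i j : ℕ)) := by
  have key : ∀ σ : ℕ, sW p n Q d i j ≤ σ → σ < eW p n Q d i j →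
      (frow θ β p Q n d bc i j).sq (idx (pdir p i) (sW p n Q d i j) (eW p n Q d i j) σ) =
        op p n i σ := fun σ h1 h2 => by
    rw [frow_eq]
    exact srow_sq _ _ _ _ h1 h2
  have hL : (frow θ β p Q n d bc i j).L = eW p n Q d i j - sW p n Q d i j := by
    rw [frow_eq]
    exact srow_L _ _ _ _ _ _ _
  have k1 := key (sW p n Q d i j) le_rfl h
  have k2 := key (eW p n Q d i j - 1) (by omega) (by omega)
  rcases idx_first (pdir p i) h with ⟨h1, h2⟩ | ⟨h1, h2⟩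
  · left
    rw [h1] at k1
    rw [h2] at k2
    refine ⟨k1, ?_⟩
    show (frow θ β p Q n d bc i j).sq ((frow θ β p Q n d bc i j).L - 1) = _
    rw [hL]
    exact k2
  · right
    rw [h1] at k2
    rw [h2] at k1
    refine ⟨k2, ?_⟩
    show (frow θ β p Q n d bc i j).sq ((frow θ β p Q n d bc i j).L - 1) = _
    rw [hL]
    exact k1

theorem srow_k0 (z : ℤ × ℤ) (r : Fin 4) (s e jp : ℕ) (F T : ℕ → ℝ) :
    (srow z r s e jp F T).k0 = if r = 0 ∨ r = 1 then jp - s else e - jp := by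
  rcases fin4_cases r with rfl | rfl | rfl | rfl <;> rfl

/-- The special point. -/
theorem ctr_spec {i j : ℕ} (h0 : 0 < (frow θ β p Q n d bc i j).k0)
    (h1 : (frow θ β p Q n d bc i j).k0 < (frow θ β p Q n d bc i j).L) :
    sW p n Q d i j < jpos n (tB n Q) bc i ∧ jpos n (tB n Q) bc i < eW p n Q d i j ∧
    ∃ σ : ℕ, sW p n Q d i j ≤ σ ∧ σ < eW p n Q d i j ∧
      (σ = jpos n (tB n Q) bc i ∨ σ + 1 = jpos n (tB n Q) bc i) ∧
      ctr (frow θ β p Q n d bc i j) 2 = op p n i σ := by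
  have key : ∀ σ : ℕ, sW p n Q d i j ≤ σ → σ < eW p n Q d i j →
      (frow θ β p Q n d bc i j).sq (idx (pdir p i) (sW p n Q d i j) (eW p n Q d i j) σ) =
        op p n i σ := fun σ h1 h2 => by
    rw [frow_eq]
    exact srow_sq _ _ _ _ h1 h2
  have hL : (frow θ β p Q n d bc i j).L = eW p n Q d i j - sW p n Q d i j := by
    rw [frow_eq]
    exact srow_L _ _ _ _ _ _ _
  have hk : (frow θ β p Q n d bc i j).k0 = if pdir p i = 0 ∨ pdir p i = 1 then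
      jpos n (tB n Q) bc i - sW p n Q d i j else eW p n Q d i j - jpos n (tB n Q) bc i := by
    rw [frow_eq]
    exact srow_k0 _ _ _ _ _ _ _
  rw [hL] at h1
  by_cases hr : pdir p i = 0 ∨ pdir p i = 1
  · rw [if_pos hr] at hk
    rw [hk] at h0 h1
    refine ⟨by omega, by omega, jpos n (tB n Q) bc i, by omega, by omega, Or.inl rfl, ?_⟩
    have h2 := key (jpos n (tB n Q) bc i) (by omega) (by omega)
    unfold idx at h2
    rw [if_pos hr, ← hk] at h2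
    exact h2
  · rw [if_neg hr] at hk
    rw [hk] at h0 h1
    refine ⟨by omega, by omega, jpos n (tB n Q) bc i - 1, by omega, by omega,
      Or.inr (by omega), ?_⟩
    have h2 := key (jpos n (tB n Q) bc i - 1) (by omega) (by omega)
    unfold idx at h2
    rw [if_neg hr, show eW p n Q d i j - 1 - (jpos n (tB n Q) bc i - 1) =
      eW p n Q d i j - jpos n (tB n Q) bc i by omega, ← hk] at h2
    exact h2

/-- Rows of the sides without special point are plain. -/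
theorem plain_of (hp : IsPolygon p) (hD : Encloses p S₀) (hQ : Q.Ok) (hb : bc.Ok l Q)
    (hd : 1 ≤ d) {i j : ℕ} (hi : i < l) (hj : j ≤ Q.m) (hi0 : i ≠ 0)
    (hse : sW p n Q d i j < eW p n Q d i j) (h : ∀ ta : ℝ, bc ≠ .dob i ta) :
    Plain (frow θ β p Q n d bc i j) := by
  have hn : ∀ {σ : ℕ}, sW p n Q d i j ≤ σ → σ < eW p n Q d i j → σ < n := fun h1 h2 =>
    lt_n hQ hd hj h1 h2
  have hn0 : 0 < n := by
    have := hn le_rfl hse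
    omega
  have ht := tB_lt (n := n) hQ hn0
  have hs := hn le_rfl hse
  have he := hn (show sW p n Q d i j ≤ eW p n Q d i j - 1 by omega) (by omega)
  have hu : uN p n (tB n Q) (kOf l n (tB n Q) i (sW p n Q d i j)) =
      uN p n (tB n Q) (kOf l n (tB n Q) i (eW p n Q d i j - 1)) := by
    rw [H825.Q.uN_kOf hp hD ht hi hs, H825.Q.uN_kOf hp hD ht hi he, if_neg hi0, if_neg hi0]
  have hk : (kOf l n (tB n Q) i (sW p n Q d i j) < bc.ka l n (tB n Q)) ↔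
      (kOf l n (tB n Q) i (eW p n Q d i j - 1) < bc.ka l n (tB n Q)) := by
    rw [ka_kOf hb ht hi hs, ka_kOf hb ht hi he]
    cases bc with
    | free => exact Iff.rfl
    | wired => exact Iff.rfl
    | dob ia ta =>
      have hne : i ≠ ia := fun h' => h ta (by rw [h'])
      show (if i = 0 then _ else _) ↔ (if i = 0 then _ else _)
      rw [if_neg hi0, if_neg hi0]
      constructor
      · rintro (h' | h')
        · exact Or.inl h'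
        · exact absurd h'.1 hne
      · rintro (h' | h')
        · exact Or.inl h'
        · exact absurd h'.1 hne
  have hF : stΦ θ β (uN p n (tB n Q)) (bc.ka l n (tB n Q))
      (kOf l n (tB n Q) i (sW p n Q d i j)) = stΦ θ β (uN p n (tB n Q)) (bc.ka l n (tB n Q))
      (kOf l n (tB n Q) i (eW p n Q d i j - 1)) := by
    unfold stΦ
    rw [hu]
    simp only [hk]
  have hT : stτ (bc.ka l n (tB n Q)) (kOf l n (tB n Q) i (sW p n Q d i j)) =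
      stτ (bc.ka l n (tB n Q)) (kOf l n (tB n Q) i (eW p n Q d i j - 1)) := by
    unfold stτ
    simp only [hk]
  have hT1 : stτ (bc.ka l n (tB n Q)) (kOf l n (tB n Q) i (eW p n Q d i j - 1)) *
      stτ (bc.ka l n (tB n Q)) (kOf l n (tB n Q) i (eW p n Q d i j - 1)) = 1 := by
    rcases H825.Q.stτ_or (bc.ka l n (tB n Q)) (kOf l n (tB n Q) i (eW p n Q d i j - 1)) with h | h
    · rw [h]; norm_num
    · rw [h]; norm_num
  have hT2 : stτ (bc.ka l n (tB n Q)) (kOf l n (tB n Q) i (sW p n Q d i j)) *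
      stτ (bc.ka l n (tB n Q)) (kOf l n (tB n Q) i (eW p n Q d i j - 1)) = 1 := by
    rw [hT]
    exact hT1
  rw [frow_eq]
  unfold Plain
  rcases fin4_cases (pdir p i) with hr | hr | hr | hr <;> rw [hr]
  · exact ⟨sub_eq_zero.2 hF.symm, hT2⟩
  · exact ⟨sub_eq_zero.2 hF.symm, hT2⟩
  · exact ⟨sub_eq_zero.2 hF, hT2⟩
  · exact ⟨sub_eq_zero.2 hF, hT2⟩

theorem floor_far {a b c : ℝ} (ha : 0 ≤ a) (hb : 0 ≤ b) (h : c ≤ |a - b|) :
    c - 1 ≤ |((⌊a⌋₊ : ℕ) : ℝ) - (⌊b⌋₊ : ℕ)| := by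
  have h1 := Nat.floor_le ha
  have h2 := Nat.lt_floor_add_one a
  have h3 := Nat.floor_le hb
  have h4 := Nat.lt_floor_add_one b
  rcases le_abs.1 h with h5 | h5
  · exact le_trans (by linarith) (le_abs_self _)
  · exact le_trans (by linarith) (neg_le_abs _)

section centres

variable (hp : IsPolygon p) (hD : Encloses p S₀) (hQ : Q.Ok) {g δ : ℝ} (hg : Gap Q l g)
  (hδ : 0 < δ) (hδg : 4 * δ ≤ g) (hn : 16 ≤ δ * n)

include hp hD hQ hg hδ hδg hn in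
/-- **(C)** The frozen squares near a mark. -/
theorem frz_box (hb : bc.Ok l Q) (hbg : BGap l Q g bc) {σ₀ : Cfg}
    (hσ₀ : Frz (frows θ β p Q n ⌊δ * n⌋₊ bc) σ₀) {R : ℤ} (hR : (2 * R : ℝ) + 4 < g * n)
    (x : Fin l × Fin (Q.m + 1)) {v : ℤ × ℤ} (hv : v ∈ uI (frows θ β p Q n ⌊δ * n⌋₊ bc))
    (hx : v ∈ Bq (hsite p Q n x) R) : σ₀ v = bcol p Q bc n x := by
  have hl : 0 < l := by have := hp.1; omega
  obtain ⟨b1, b2, b3, b4, b5⟩ := gn_big hQ hg hδg hn hl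
  rw [uI_frows] at hv
  obtain ⟨y, τ, h1, h2, rfl⟩ := mem_frmQ.1 hv
  have hτ := lt_n hQ (by omega : 1 ≤ ⌊δ * n⌋₊) (Nat.lt_succ_iff.1 y.2.isLt) h1 h2
  rw [frz_col hp hD hQ hg hδ hδg hn hσ₀ hb y.1.2 hτ hv]
  have h3 : nm (vp p n y.1 τ - hsite p Q n x) ≤ R + 1 := by
    have a1 := op_near (p := p) (n := n) y.1 τ
    have a2 := nm_tri (vp p n y.1 τ) (op p n y.1 τ) (hsite p Q n x)
    have a3 := mem_Bq' hx
    rw [nm_sub_comm (vp p n y.1 τ) (op p n y.1 τ)] at a2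
    omega
  have h4 := window_col (m := R + 1) hp hQ hg hbg (by push_cast; linarith) y.1.2 hτ h3
  unfold bcol
  rw [decide_eq_decide, h4]

include hp hQ hg hδ hδg hn in
/-- **(A)** The tips are next to the marks. -/
theorem ctr_tip (x : Fin l × Fin (Q.m + 1)) {k : Fin 3} (hk : k ≠ 2) :
    ∃ y : Fin l × Fin (Q.m + 1),
      nm (ctr (frows θ β p Q n ⌊δ * n⌋₊ bc x) k - hsite p Q n y) ≤ (⌊δ * n⌋₊ : ℤ) + 2 := by
  have hl : 0 < l := by have := hp.1; omega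
  obtain ⟨b1, b2, b3, b4, b5⟩ := gn_big hQ hg hδg hn hl
  have hse : sW p n Q ⌊δ * n⌋₊ x.1 x.2 < eW p n Q ⌊δ * n⌋₊ x.1 x.2 := by
    have h1 := ends_bd (p := p) hQ hg hδ hδg hn x.1.2 (j := x.2) (by omega)
    have h2 := hg.1 x.1 x.1.2 x.2 (by omega)
    have hn0 : (0 : ℝ) ≤ n := Nat.cast_nonneg n
    have h3 : g * n ≤ (Q.θ x.1 (x.2 + 1) - Q.θ x.1 x.2) * n :=
      mul_le_mul_of_nonneg_right (by linarith) hn0
    have h4 : 4 * δ * n ≤ g * n := mul_le_mul_of_nonneg_right hδg hn0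
    have h5 : ((sW p n Q ⌊δ * n⌋₊ x.1 x.2 : ℕ) : ℝ) < (eW p n Q ⌊δ * n⌋₊ x.1 x.2 : ℕ) := by
      linarith [h1.1.2, h1.2.1.1]
    exact_mod_cast h5
  have s1 := le_rnd ((n : ℤ) • p x.1) (bsite p Q n) (⌊Q.θ x.1 x.2 * n⌋₊ + ⌊δ * n⌋₊)
  have s2 := le_rnd ((n : ℤ) • p x.1) (bsite p Q n) (⌊Q.θ x.1 (x.2 + 1) * n⌋₊ - ⌊δ * n⌋₊)
  change _ ≤ sW p n Q ⌊δ * n⌋₊ x.1 x.2 ∧ sW p n Q ⌊δ * n⌋₊ x.1 x.2 ≤ _ at s1
  change _ ≤ eW p n Q ⌊δ * n⌋₊ x.1 x.2 ∧ eW p n Q ⌊δ * n⌋₊ x.1 x.2 ≤ _ at s2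
  have hend := (ends_bd (p := p) hQ hg hδ hδg hn x.1.2 (j := x.2) (by omega)).2.2.2
  -- the first step
  have e1 : nm (op p n x.1 (sW p n Q ⌊δ * n⌋₊ x.1 x.2 : ℕ) - hsite p Q n x) ≤
      (⌊δ * n⌋₊ : ℤ) + 2 := by
    have a1 := op_near (p := p) (n := n) x.1 (sW p n Q ⌊δ * n⌋₊ x.1 x.2 : ℕ)
    have a2 := nm_tri (op p n x.1 (sW p n Q ⌊δ * n⌋₊ x.1 x.2 : ℕ))
      (vp p n x.1 (sW p n Q ⌊δ * n⌋₊ x.1 x.2 : ℕ)) (hsite p Q n x)
    have e5 : hsite p Q n x = vp p n x.1 (⌊Q.θ x.1 x.2 * n⌋₊ : ℤ) := rfl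
    have a3 : nm (vp p n x.1 (sW p n Q ⌊δ * n⌋₊ x.1 x.2 : ℕ) - hsite p Q n x) ≤
        (⌊δ * n⌋₊ : ℤ) + 1 := by
      rw [e5, vp_same, abs_le]
      omega
    omega
  -- the last step
  obtain ⟨z, hz⟩ := next_mark (n := n) hp hQ x.1.2 (j := x.2) (by omega)
  have e2 : nm (op p n x.1 ((eW p n Q ⌊δ * n⌋₊ x.1 x.2 - 1 : ℕ) : ℤ) - hsite p Q n z) ≤
      (⌊δ * n⌋₊ : ℤ) + 2 := by
    have a1 := op_near (p := p) (n := n) x.1 ((eW p n Q ⌊δ * n⌋₊ x.1 x.2 - 1 : ℕ) : ℤ)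
    have a2 := nm_tri (op p n x.1 ((eW p n Q ⌊δ * n⌋₊ x.1 x.2 - 1 : ℕ) : ℤ))
      (vp p n x.1 ((eW p n Q ⌊δ * n⌋₊ x.1 x.2 - 1 : ℕ) : ℤ)) (hsite p Q n z)
    have a3 : nm (vp p n x.1 ((eW p n Q ⌊δ * n⌋₊ x.1 x.2 - 1 : ℕ) : ℤ) - hsite p Q n z) ≤
        (⌊δ * n⌋₊ : ℤ) + 1 := by
      rw [hz, vp_same, abs_le]
      omega
    omega
  have hk' : k = 0 ∨ k = 1 := by
    fin_cases k
    · exact Or.inl rfl
    · exact Or.inr rfl
    · exact absurd rfl hk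
  rcases ctr_tips (θ := θ) (β := β) (bc := bc) hse with ⟨h1, h2⟩ | ⟨h1, h2⟩
  · rcases hk' with rfl | rfl
    · exact ⟨x, by
        show nm (ctr (frow θ β p Q n ⌊δ * n⌋₊ bc x.1 x.2) 0 - _) ≤ _
        rw [h1]; exact e1⟩
    · exact ⟨z, by
        show nm (ctr (frow θ β p Q n ⌊δ * n⌋₊ bc x.1 x.2) 1 - _) ≤ _
        rw [h2]; exact e2⟩
  · rcases hk' with rfl | rfl
    · exact ⟨z, by
        show nm (ctr (frow θ β p Q n ⌊δ * n⌋₊ bc x.1 x.2) 0 - _) ≤ _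
        rw [h1]; exact e2⟩
    · exact ⟨x, by
        show nm (ctr (frow θ β p Q n ⌊δ * n⌋₊ bc x.1 x.2) 1 - _) ≤ _
        rw [h2]; exact e1⟩

variable (hb : bc.Ok l Q) (hbg : BGap l Q g bc) (hθ : 0 < θ) (hθ' : 3 * θ ≤ Real.pi)
  (hβ : β = (θ - Real.pi) / 2 ∨ β = (Real.pi - 3 * θ) / 2)

include hp hD hQ hg hδ hδg hn hb hbg hθ hθ' hβ in
/-- The special point of a row which is not plain. -/
theorem spec_pos {x : Fin l × Fin (Q.m + 1)} (hx : ¬ Plain (frows θ β p Q n ⌊δ * n⌋₊ bc x)) :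
    ∃ σ jp : ℕ, ctr (frows θ β p Q n ⌊δ * n⌋₊ bc x) 2 = op p n x.1 σ ∧
      (σ = jp ∨ σ + 1 = jp) ∧ jp = jpos n (tB n Q) bc x.1 ∧
      sW p n Q ⌊δ * n⌋₊ x.1 x.2 < jp ∧ jp < eW p n Q ⌊δ * n⌋₊ x.1 x.2 ∧
      sW p n Q ⌊δ * n⌋₊ x.1 x.2 ≤ σ ∧ σ < eW p n Q ⌊δ * n⌋₊ x.1 x.2 ∧
      ∀ j ≤ Q.m + 1, g * n - 1 ≤ |(jp : ℝ) - (⌊Q.θ x.1 j * n⌋₊ : ℕ)| := by
  have hl : 0 < l := by have := hp.1; omega
  have hn0 : (0 : ℝ) ≤ n := Nat.cast_nonneg n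
  obtain ⟨b1, b2, b3, b4, b5⟩ := gn_big hQ hg hδg hn hl
  have hok := frow_ok (β := β) (bc := bc) hp hD hQ hθ hθ' hβ hg hbg hδ hδg hn x.1.2
    (j := x.2) (by omega)
  obtain ⟨k1, k2⟩ := H945.Q.ok_k0 hok hx
  have h0 : 0 < (frow θ β p Q n ⌊δ * n⌋₊ bc x.1 x.2).k0 := by
    have : (0 : ℝ) < (frow θ β p Q n ⌊δ * n⌋₊ bc x.1 x.2).k0 := by linarith
    exact_mod_cast this
  have h1 : (frow θ β p Q n ⌊δ * n⌋₊ bc x.1 x.2).k0 <
      (frow θ β p Q n ⌊δ * n⌋₊ bc x.1 x.2).L := by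
    have : ((frow θ β p Q n ⌊δ * n⌋₊ bc x.1 x.2).k0 : ℝ) <
      (frow θ β p Q n ⌊δ * n⌋₊ bc x.1 x.2).L := by linarith
    exact_mod_cast this
  obtain ⟨k3, k4, σ, k5, k6, k7, k8⟩ := ctr_spec h0 h1
  refine ⟨σ, jpos n (tB n Q) bc x.1, k8, k7, rfl, k3, k4, k5, k6, ?_⟩
  intro j hj
  by_cases hi : (x.1 : ℕ) = 0
  · have e : jpos n (tB n Q) bc x.1 = ⌊Q.tp * n⌋₊ := by
      unfold jpos
      rw [if_pos hi]
      rfl
    rw [e, hi]
    refine floor_far (by have := hQ.tp0; positivity)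
      (mul_nonneg (theta_nonneg hQ 0 hj) hn0) ?_
    rw [← sub_mul, abs_mul, abs_of_nonneg hn0, abs_sub_comm]
    exact mul_le_mul_of_nonneg_right (hg.2 j hj) hn0
  · have hex : ∃ ta : ℝ, bc = .dob x.1 ta := by
      by_contra hcon
      push Not at hcon
      exact hx (plain_of hp hD hQ hb (by omega) x.1.2 (by omega) hi (by omega) hcon)
    obtain ⟨ta, rfl⟩ := hex
    have e : jpos n (tB n Q) (.dob x.1 ta) x.1 = ⌊ta * n⌋₊ := by
      unfold jpos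
      rw [if_neg hi]
      rfl
    obtain ⟨c1, c2, c3, c4, c5⟩ := hbg
    rw [e]
    refine floor_far (by positivity) (mul_nonneg (theta_nonneg hQ x.1 hj) hn0) ?_
    rw [← sub_mul, abs_mul, abs_of_nonneg hn0, abs_sub_comm]
    exact mul_le_mul_of_nonneg_right (c5 j hj) hn0

include hp hD hQ hg hδ hδg hn hb hbg hθ hθ' hβ in
/-- The special point is far from the points of the other sides and from the points of the side off
the part of the side which contains it. -/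
theorem spec_far {x : Fin l × Fin (Q.m + 1)} (hx : ¬ Plain (frows θ β p Q n ⌊δ * n⌋₊ bc x))
    {i τ : ℕ} (hi : i < l) (hτ : τ ≤ n)
    (h : i = x.1 → τ ≤ ⌊Q.θ x.1 x.2 * n⌋₊ ∨ ⌊Q.θ x.1 (x.2 + 1) * n⌋₊ ≤ τ) :
    g * n - 2 ≤ (nm (ctr (frows θ β p Q n ⌊δ * n⌋₊ bc x) 2 - vp p n i τ) : ℝ) := by
  have hl : 0 < l := by have := hp.1; omega
  have hn0 : (0 : ℝ) ≤ n := Nat.cast_nonneg n
  obtain ⟨b1, b2, b3, b4, b5⟩ := gn_big hQ hg hδg hn hl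
  obtain ⟨σ, jp, c1, c2, -, c3, c4, c5, c6, c7⟩ :=
    spec_pos hp hD hQ hg hδ hδg hn hb hbg hθ hθ' hβ hx
  obtain ⟨-, -, e3, e4⟩ := ends_bd (p := p) hQ hg hδ hδg hn x.1.2 (j := x.2) (by omega)
  have f1 := (fl hQ n x.1 (show (x.2 : ℕ) + 1 ≤ Q.m + 1 by omega)).2.2
  have hjn : jp < n := by omega
  -- the point of the side
  have hvp : g * n - 1 ≤ (nm (vp p n x.1 jp - vp p n i τ) : ℝ) := by
    by_cases hix : i = x.1
    · rw [hix, vp_same]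
      rcases h hix with h1 | h1
      · have h2 := c7 x.2 (by omega)
        rw [abs_of_nonneg (by
          have : ((⌊Q.θ x.1 x.2 * n⌋₊ : ℕ) : ℝ) ≤ jp := by
            have : ⌊Q.θ x.1 x.2 * n⌋₊ ≤ jp := by omega
            exact_mod_cast this
          linarith)] at h2
        have h3 : ((jp : ℤ) - τ : ℤ) ≤ |(jp : ℤ) - τ| := le_abs_self _
        have h4 : (((jp : ℤ) - τ : ℤ) : ℝ) ≤ ((|(jp : ℤ) - τ| : ℤ) : ℝ) := by exact_mod_cast h3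
        have h5 : (τ : ℝ) ≤ (⌊Q.θ x.1 x.2 * n⌋₊ : ℕ) := by exact_mod_cast h1
        push_cast at h4 ⊢
        linarith
      · have h2 := c7 (x.2 + 1) (by omega)
        rw [abs_sub_comm, abs_of_nonneg (by
          have : (jp : ℝ) ≤ (⌊Q.θ x.1 (x.2 + 1) * n⌋₊ : ℕ) := by
            have : jp ≤ ⌊Q.θ x.1 (x.2 + 1) * n⌋₊ := by omega
            exact_mod_cast this
          linarith)] at h2
        have h3 : -((jp : ℤ) - τ : ℤ) ≤ |(jp : ℤ) - τ| := neg_le_abs _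
        have h4 : ((-((jp : ℤ) - τ) : ℤ) : ℝ) ≤ ((|(jp : ℤ) - τ| : ℤ) : ℝ) := by exact_mod_cast h3
        have h5 : ((⌊Q.θ x.1 (x.2 + 1) * n⌋₊ : ℕ) : ℝ) ≤ τ := by exact_mod_cast h1
        push_cast at h4 ⊢
        linarith
    · have h2 := c7 0 (by omega)
      have h3 := c7 (Q.m + 1) le_rfl
      rw [fl_zero hQ, Nat.cast_zero, sub_zero, abs_of_nonneg (Nat.cast_nonneg _)] at h2
      rw [fl_one hQ, abs_sub_comm, abs_of_nonneg (by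
        have : (jp : ℝ) ≤ n := by exact_mod_cast hjn.le
        linarith)] at h3
      have h4 : ⌈g * n - 1⌉ ≤ (jp : ℤ) := Int.ceil_le.2 (by push_cast; exact h2)
      have h5 : ⌈g * n - 1⌉ ≤ (n : ℤ) - jp := Int.ceil_le.2 (by push_cast; exact h3)
      have h6 := vp_far hp x.1.2 hi (fun h' => hix h'.symm) (σ := jp) (σ' := τ)
        (m := ⌈g * n - 1⌉) (n := n) (by omega) (by exact_mod_cast hτ) h4 h5 (by omega)
      exact (Int.le_ceil _).trans (by exact_mod_cast h6)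
  have hnear : nm (ctr (frows θ β p Q n ⌊δ * n⌋₊ bc x) 2 - vp p n x.1 jp) ≤ 1 := by
    rw [c1]
    rcases c2 with rfl | c2
    · exact op_near _ _
    · have e5 : op p n x.1 (σ : ℤ) =
          face (vp p n x.1 (jp : ℤ)) (pdir p x.1 - 1 - 1) := by
        have := face_back ((n : ℤ) • p (x.1 : ℕ)) (pdir p x.1) (jp : ℤ)
        rw [show (jp : ℤ) - 1 = σ by omega] at this
        exact this.symm
      rw [e5]
      exact face_near _ _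
  have htri := nm_tri (vp p n x.1 jp) (ctr (frows θ β p Q n ⌊δ * n⌋₊ bc x) 2) (vp p n i τ)
  rw [nm_sub_comm (vp p n x.1 jp) (ctr (frows θ β p Q n ⌊δ * n⌋₊ bc x) 2)] at htri
  have h8 : (nm (vp p n x.1 jp - vp p n i τ) : ℝ) ≤
      1 + nm (ctr (frows θ β p Q n ⌊δ * n⌋₊ bc x) 2 - vp p n i τ) := by
    have : nm (vp p n x.1 jp - vp p n i τ) ≤
      1 + nm (ctr (frows θ β p Q n ⌊δ * n⌋₊ bc x) 2 - vp p n i τ) := by omega
    exact_mod_cast this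
  linarith

include hp hD hQ hg hδ hδg hn hb hbg hθ hθ' hβ in
/-- **(B)** The special points are far from the marks. -/
theorem ctr_mark {x : Fin l × Fin (Q.m + 1)} (hx : ¬ Plain (frows θ β p Q n ⌊δ * n⌋₊ bc x))
    (y : Fin l × Fin (Q.m + 1)) :
    g * n - 2 ≤ (nm (ctr (frows θ β p Q n ⌊δ * n⌋₊ bc x) 2 - hsite p Q n y) : ℝ) := by
  refine spec_far hp hD hQ hg hδ hδg hn hb hbg hθ hθ' hβ hx (i := y.1)
    (τ := ⌊Q.θ y.1 y.2 * n⌋₊) y.1.2 (fl hQ n y.1 (by omega)).2.2 ?_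
  intro h
  have hn0 : (0 : ℝ) ≤ n := Nat.cast_nonneg n
  rcases Nat.lt_or_ge x.2 y.2 with h1 | h1
  · right
    rw [h]
    exact Nat.floor_le_floor (mul_le_mul_of_nonneg_right
      (theta_mono hQ x.1 (by omega) (by omega)) hn0)
  · left
    rw [h]
    exact Nat.floor_le_floor (mul_le_mul_of_nonneg_right
      (theta_mono hQ x.1 (by omega) (by omega)) hn0)

include hp hD hQ hg hδ hδg hn hb hbg hθ hθ' hβ in
/-- **The special points are far from the other rows.** -/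
theorem ctr_row {x y : Fin l × Fin (Q.m + 1)}
    (hx : ¬ Plain (frows θ β p Q n ⌊δ * n⌋₊ bc x)) (hxy : x ≠ y) {v : ℤ × ℤ}
    (hv : v ∈ (frows θ β p Q n ⌊δ * n⌋₊ bc y).I) :
    g * n - 3 ≤ (nm (ctr (frows θ β p Q n ⌊δ * n⌋₊ bc x) 2 - v) : ℝ) := by
  have hl : 0 < l := by have := hp.1; omega
  have hn0 : (0 : ℝ) ≤ n := Nat.cast_nonneg n
  obtain ⟨b1, b2, b3, b4, b5⟩ := gn_big hQ hg hδg hn hl
  change v ∈ (frow θ β p Q n ⌊δ * n⌋₊ bc y.1 y.2).I at hv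
  rw [frow_I] at hv
  obtain ⟨τ, h1, h2, rfl⟩ := mem_rowP.1 hv
  obtain ⟨e1, e2⟩ := eW_le h1 h2
  have f1 := (fl hQ n y.1 (show (y.2 : ℕ) + 1 ≤ Q.m + 1 by omega)).2.2
  have h3 := spec_far hp hD hQ hg hδ hδg hn hb hbg hθ hθ' hβ hx (i := y.1) (τ := τ) y.1.2
    (by omega) (by
      intro h
      have hj : (x.2 : ℕ) ≠ y.2 := fun hj => hxy (Prod.ext (Fin.ext h.symm) (Fin.ext hj))
      rcases lt_or_gt_of_ne hj with hj | hj
      · right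
        have h4 : ⌊Q.θ x.1 (x.2 + 1) * n⌋₊ ≤ ⌊Q.θ y.1 y.2 * n⌋₊ := by
          rw [h]
          exact Nat.floor_le_floor (mul_le_mul_of_nonneg_right
            (theta_mono hQ x.1 (by omega) (by omega)) hn0)
        omega
      · left
        have h4 : ⌊Q.θ y.1 (y.2 + 1) * n⌋₊ ≤ ⌊Q.θ x.1 x.2 * n⌋₊ := by
          rw [h]
          exact Nat.floor_le_floor (mul_le_mul_of_nonneg_right
            (theta_mono hQ x.1 (by omega) (by omega)) hn0)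
        omega)
  have a1 := op_near (p := p) (n := n) y.1 τ
  have a2 := nm_tri (ctr (frows θ β p Q n ⌊δ * n⌋₊ bc x) 2) (op p n y.1 τ) (vp p n y.1 τ)
  have a3 : (nm (ctr (frows θ β p Q n ⌊δ * n⌋₊ bc x) 2 - vp p n y.1 τ) : ℝ) ≤
      nm (ctr (frows θ β p Q n ⌊δ * n⌋₊ bc x) 2 - op p n y.1 τ) + 1 := by
    have : nm (ctr (frows θ β p Q n ⌊δ * n⌋₊ bc x) 2 - vp p n y.1 τ) ≤
      nm (ctr (frows θ β p Q n ⌊δ * n⌋₊ bc x) 2 - op p n y.1 τ) + 1 := by omega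
    exact_mod_cast this
  linarith

/-- The rows of the frame are rows. -/
theorem frows_ok (hp : IsPolygon p) (hD : Encloses p S₀) (hQ : Q.Ok) {g δ : ℝ} (hg : Gap Q l g)
    (hδ : 0 < δ) (hδg : 4 * δ ≤ g) (hn : 16 ≤ δ * n) (hbg : BGap l Q g bc) (hθ : 0 < θ)
    (hθ' : 3 * θ ≤ Real.pi) (hβ : β = (θ - Real.pi) / 2 ∨ β = (Real.pi - 3 * θ) / 2)
    (x : Fin l × Fin (Q.m + 1)) : (frows θ β p Q n ⌊δ * n⌋₊ bc x).Ok θ δ n :=
  frow_ok (β := β) (bc := bc) hp hD hQ hθ hθ' hβ hg hbg hδ hδg hn x.1.2 (j := x.2) (by omega)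

include hp hD hQ hg hδ hδg hn hb hbg hθ hθ' hβ in
/-- The special points are far from each other. -/
theorem ctr_ctr {x y : Fin l × Fin (Q.m + 1)}
    (hx : ¬ Plain (frows θ β p Q n ⌊δ * n⌋₊ bc x)) (hy : ¬ Plain (frows θ β p Q n ⌊δ * n⌋₊ bc y))
    (hxy : x ≠ y) : g * n - 3 ≤ (nm (ctr (frows θ β p Q n ⌊δ * n⌋₊ bc x) 2 -
      ctr (frows θ β p Q n ⌊δ * n⌋₊ bc y) 2) : ℝ) :=
  ctr_row hp hD hQ hg hδ hδg hn hb hbg hθ hθ' hβ hx hxy
    (ctr_mem (frows_ok hp hD hQ hg hδ hδg hn hbg hθ hθ' hβ y) (by linarith) fun _ => hy)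

include hp hD hQ hg hδ hδg hn hb hbg hθ hθ' hβ in
/-- The special points are far from the tips. -/
theorem ctr_tip_far {x : Fin l × Fin (Q.m + 1)} (hx : ¬ Plain (frows θ β p Q n ⌊δ * n⌋₊ bc x))
    (y : Fin l × Fin (Q.m + 1)) {k : Fin 3} (hk : k ≠ 2) :
    g * n - ⌊δ * n⌋₊ - 4 ≤ (nm (ctr (frows θ β p Q n ⌊δ * n⌋₊ bc x) 2 -
      ctr (frows θ β p Q n ⌊δ * n⌋₊ bc y) k) : ℝ) := by
  obtain ⟨z, hz⟩ := ctr_tip (θ := θ) (β := β) (bc := bc) hp hQ hg hδ hδg hn y hk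
  have h1 := ctr_mark hp hD hQ hg hδ hδg hn hb hbg hθ hθ' hβ hx z
  have h2 := nm_tri (ctr (frows θ β p Q n ⌊δ * n⌋₊ bc x) 2)
    (ctr (frows θ β p Q n ⌊δ * n⌋₊ bc y) k) (hsite p Q n z)
  have h3 : (nm (ctr (frows θ β p Q n ⌊δ * n⌋₊ bc x) 2 - hsite p Q n z) : ℝ) ≤
      nm (ctr (frows θ β p Q n ⌊δ * n⌋₊ bc x) 2 - ctr (frows θ β p Q n ⌊δ * n⌋₊ bc y) k) +
        ((⌊δ * n⌋₊ : ℕ) + 2) := by
    have : nm (ctr (frows θ β p Q n ⌊δ * n⌋₊ bc x) 2 - hsite p Q n z) ≤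
      nm (ctr (frows θ β p Q n ⌊δ * n⌋₊ bc x) 2 - ctr (frows θ β p Q n ⌊δ * n⌋₊ bc y) k) +
        ((⌊δ * n⌋₊ : ℤ) + 2) := by omega
    exact_mod_cast this
  linarith

include hp hD hQ hg hδ hδg hn hbg hθ hθ' hβ in
/-- The centres are in their rows. -/
theorem ctr_in (x : Fin l × Fin (Q.m + 1)) {k : Fin 3}
    (hk : Sp (frows θ β p Q n ⌊δ * n⌋₊ bc x) k) :
    ctr (frows θ β p Q n ⌊δ * n⌋₊ bc x) k ∈ (frows θ β p Q n ⌊δ * n⌋₊ bc x).I :=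
  ctr_mem (frows_ok hp hD hQ hg hδ hδg hn hbg hθ hθ' hβ x) (by linarith) hk

include hp hD hQ hg hδ hδg hn hbg hθ hθ' hβ in
/-- The centres are far from the other rows (scale of the holes). -/
theorem ctr_row' {x y : Fin l × Fin (Q.m + 1)} (hxy : x ≠ y) {k : Fin 3}
    (hk : Sp (frows θ β p Q n ⌊δ * n⌋₊ bc x) k) {v : ℤ × ℤ}
    (hv : v ∈ (frows θ β p Q n ⌊δ * n⌋₊ bc y).I) :
    (⌊δ * n⌋₊ : ℤ) - 3 ≤ nm (ctr (frows θ β p Q n ⌊δ * n⌋₊ bc x) k - v) :=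
  frow_far hp hQ hg hδ hδg hn hxy (ctr_in hp hD hQ hg hδ hδg hn hbg hθ hθ' hβ x hk) hv

include hp hD hQ hg hδ hδg hn hbg hθ hθ' hβ in
/-- **The centres are far from each other** (scale of the holes). -/
theorem ctr_ctr' {x y : Fin l × Fin (Q.m + 1)} {k m : Fin 3} (hne : x ≠ y ∨ k ≠ m)
    (hk : Sp (frows θ β p Q n ⌊δ * n⌋₊ bc x) k) (hm : Sp (frows θ β p Q n ⌊δ * n⌋₊ bc y) m) :
    (⌊δ * n⌋₊ : ℤ) - 3 ≤ nm (ctr (frows θ β p Q n ⌊δ * n⌋₊ bc x) k -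
      ctr (frows θ β p Q n ⌊δ * n⌋₊ bc y) m) := by
  by_cases hxy : x = y
  · subst hxy
    have hkm : k ≠ m := hne.resolve_left (fun h => h rfl)
    have h1 := ctr_sep1 (frows_ok hp hD hQ hg hδ hδg hn hbg hθ hθ' hβ x) (by linarith) hk hm hkm
    have h2 : (⌊δ * n⌋₊ : ℝ) ≤ δ * n := Nat.floor_le (by linarith)
    have h3 : ((⌊δ * n⌋₊ : ℤ) : ℝ) - 3 ≤ (nm (ctr (frows θ β p Q n ⌊δ * n⌋₊ bc x) k -
      ctr (frows θ β p Q n ⌊δ * n⌋₊ bc x) m) : ℝ) := by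
      push_cast
      linarith
    exact_mod_cast h3
  · exact ctr_row' hp hD hQ hg hδ hδg hn hbg hθ hθ' hβ hxy hk
      (ctr_in hp hD hQ hg hδ hδg hn hbg hθ hθ' hβ y hm)

include hp hD hQ hg hδ hδg hn hbg hθ hθ' hβ in
/-- **The boxes of the centres are disjoint.** -/
theorem ctr_box {x y : Fin l × Fin (Q.m + 1)} {k m : Fin 3} (hne : x ≠ y ∨ k ≠ m)
    (hk : Sp (frows θ β p Q n ⌊δ * n⌋₊ bc x) k) (hm : Sp (frows θ β p Q n ⌊δ * n⌋₊ bc y) m)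
    {ρ : ℤ} (hρ : 2 * ρ + 3 < ⌊δ * n⌋₊) :
    Disjoint (Bq (ctr (frows θ β p Q n ⌊δ * n⌋₊ bc x) k) ρ)
      (Bq (ctr (frows θ β p Q n ⌊δ * n⌋₊ bc y) m) ρ) := by
  rw [Finset.disjoint_left]
  intro v h1 h2
  have h3 := ctr_ctr' hp hD hQ hg hδ hδg hn hbg hθ hθ' hβ hne hk hm
  have h4 := mem_Bq' h1
  have h5 := mem_Bq' h2
  have h6 := nm_tri (ctr (frows θ β p Q n ⌊δ * n⌋₊ bc x) k) v
    (ctr (frows θ β p Q n ⌊δ * n⌋₊ bc y) m)
  rw [nm_sub_comm (ctr (frows θ β p Q n ⌊δ * n⌋₊ bc x) k) v] at h6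
  omega

include hp hD hQ hg hδ hδg hn hbg hθ hθ' hβ in
/-- **The boxes of the centres see their own row only.** -/
theorem ctr_own (x : Fin l × Fin (Q.m + 1)) {k : Fin 3}
    (hk : Sp (frows θ β p Q n ⌊δ * n⌋₊ bc x) k) {ρ : ℤ} (hρ : ρ + 3 < ⌊δ * n⌋₊) {v : ℤ × ℤ}
    (hv : v ∈ Bq (ctr (frows θ β p Q n ⌊δ * n⌋₊ bc x) k) ρ)
    (hu : v ∈ uI (frows θ β p Q n ⌊δ * n⌋₊ bc)) : v ∈ (frows θ β p Q n ⌊δ * n⌋₊ bc x).I := by
  obtain ⟨y, hy⟩ := mem_uI.1 hu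
  by_cases hxy : x = y
  · rw [hxy]; exact hy
  · exfalso
    have h1 := ctr_row' hp hD hQ hg hδ hδg hn hbg hθ hθ' hβ hxy hk hy
    have h2 := mem_Bq' hv
    rw [nm_sub_comm] at h2
    omega

include hp hD hQ hg hδ hδg hn hb hbg hθ hθ' hβ in
/-- The macroscopic boxes of the special points see their own row only. -/
theorem ctr_own2 (x : Fin l × Fin (Q.m + 1))
    (hx : ¬ Plain (frows θ β p Q n ⌊δ * n⌋₊ bc x)) {ρ : ℤ} (hρ : (ρ : ℝ) + 3 < g * n) {v : ℤ × ℤ}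
    (hv : v ∈ Bq (ctr (frows θ β p Q n ⌊δ * n⌋₊ bc x) 2) ρ)
    (hu : v ∈ uI (frows θ β p Q n ⌊δ * n⌋₊ bc)) : v ∈ (frows θ β p Q n ⌊δ * n⌋₊ bc x).I := by
  obtain ⟨y, hy⟩ := mem_uI.1 hu
  by_cases hxy : x = y
  · rw [hxy]; exact hy
  · exfalso
    have h1 := ctr_row hp hD hQ hg hδ hδg hn hb hbg hθ hθ' hβ hx hxy hy
    have h2 := mem_Bq' hv
    rw [nm_sub_comm] at h2
    have h3 : (nm (ctr (frows θ β p Q n ⌊δ * n⌋₊ bc x) 2 - v) : ℝ) ≤ ρ := by exact_mod_cast h2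
    linarith

include hp hD hQ hg hδ hδg hn in
/-- The rows are far from the flow. -/
theorem row_flow {κ₀ B₀ : ℝ} {c : Ed → ℝ} (hfl : FlowIn (enl S₀ n) κ₀ B₀ n c) {v : ℤ × ℤ}
    (hv : v ∈ uI (frows θ β p Q n ⌊δ * n⌋₊ bc)) {e : Ed} (he : c e ≠ 0) :
    κ₀ * n < (nm (v - epos e) : ℝ) := by
  by_contra hcon
  push Not at hcon
  have h1 := hfl.sup e he v hcon
  rw [uI_frows] at hv
  exact (Finset.disjoint_left.1 (frmQ_disj hp hD hQ hg hδ hδg hn)) h1 hv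

end centres

end Vale.Agent.P167.Enl
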