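import Vale.Agent.P167.H398.Q.SDefs
import Vale.Agent.P167.H592.T.HoleG

/-!
# P167, general `q`, START: the frame of rows as a frame of `QX.Frame`

If the loops which visit the holes are confined (`Cnf`), then the rows of the frame with the flow `c`
satisfy `QX.Frame` with the boxes of the holes.
-/

namespace Vale.Agent.P167.Enl

open Finset
open Vale.Agent.P167.Top
open Vale.Agent.P167.FK (Bq Good)
open Vale.Agent.P167.E6 (IsPolygon Encloses dir face)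
open Vale.Agent.P167.XDL (bS mem_bS)
open Vale.Agent.P167.H825 (enl pdir Marks FlowIn)
open Vale.Agent.P167.H825.Q (Row Bc frow PT PT_frame PT_ph frmP RowsP)
open Vale.Agent.P167.H680.T (rowC uI frows mem_uI)
open Vale.Agent.P167.H662 (hsite)
open Vale.Agent.P167.H199 (Gap)
open Vale.Agent.P167.H398.Q (hB Cnf)

variable {l : ℕ} {p : ZMod l → ℤ × ℤ} {n : ℕ} {S₀ : Finset (ℤ × ℤ)} {Q : Marks} {bc : Bc}
  {d : ℕ} {θ β : ℝ} {c : Ed → ℝ}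

theorem uI_frows : uI (frows θ β p Q n d bc) = frmQ p Q n d := (frmQ_eq θ β bc).symm

theorem rowC_PT : rowC θ (frows θ β p Q n d bc) c = PT θ β p Q n d bc (fun _ _ => 0) c := rfl

theorem rowC_ph : (rowC θ (frows θ β p Q n d bc) c).ph =
    QX.aF (rowC θ (frows θ β p Q n d bc) 0).ph c := PT_ph (Zr := fun _ _ => 0)

theorem loop_iter {ω : Cfg} {ℓ : Finset Ed} (h : IsLoop ω ℓ) {e : Ed} (he : e ∈ ℓ) (k : ℕ) :
    (nx ω)^[k] e ∈ ℓ := by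
  obtain ⟨e0, h0⟩ := h
  obtain ⟨m, rfl⟩ := (h0 e).1 he
  rw [h0]
  exact ⟨k + m, Function.iterate_add_apply _ _ _ _⟩

theorem mem_hB {R : ℤ} {v : ℤ × ℤ} : v ∈ hB p Q n R ↔
    ∃ x : Fin l × Fin (Q.m + 1), v ∈ Bq (hsite p Q n x) R := by
  unfold hB
  simp

variable (hp : IsPolygon p) (hD : Encloses p S₀) (hQ : Q.Ok) {g δ : ℝ} (hg : Gap Q l g)
  (hδ : 0 < δ) (hδg : 4 * δ ≤ g) (hn : 16 ≤ δ * n)

include hp hD hQ hg hδ hδg hn in
/-- The holes of the frame are in the boxes. -/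
theorem hole_hB {R : ℤ} (hR : (⌊δ * n⌋₊ : ℤ) + 4 ≤ R) {e : Ed} (he : e ∈ bS (enl S₀ n))
    (he' : e ∉ bS (frmQ p Q n ⌊δ * n⌋₊)) : hdv e ∈ hB p Q n R := by
  obtain ⟨x, hx⟩ := hole_near hp hD hQ hg hδ hδg hn he he'
  exact mem_hB.2 ⟨x, Bq_of (by omega)⟩

include hp hD hQ hg hδ hδg hn in
/-- **The frame with confined loops at the holes.** -/
theorem frame_cnf (hb' : bc.Ok l Q) {κ₀ B₀ : ℝ} (hfl : FlowIn (enl S₀ n) κ₀ B₀ n c) {R R' : ℤ}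
    (hR : (⌊δ * n⌋₊ : ℤ) + 4 ≤ R) (hR' : (R' : ℝ) + 2 ≤ κ₀ * n) (hκ₀ : 1 ≤ κ₀ * n) {ω : Cfg}
    (hω : Good ω) (hc : Cnf p Q n R R' ω) :
    QX.Frame θ (qN p n (tB n Q)) (enl S₀ n) (uI (frows θ β p Q n ⌊δ * n⌋₊ bc))
      (uN p n (tB n Q)) (QX.stag θ β (qN p n (tB n Q)) (bc.ka l n (tB n Q)))
      (rowC θ (frows θ β p Q n ⌊δ * n⌋₊ bc) 0).ph c 0 (hB p Q n R : Set (ℤ × ℤ)) ω := by
  have hd1 : 16 ≤ ⌊δ * n⌋₊ := Nat.le_floor (by push_cast; linarith)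
  have hn' : 0 < n := by
    rcases Nat.eq_zero_or_pos n with h | h
    · rw [h] at hn; norm_num at hn
    · exact h
  have hrow : RowsP p Q n ⌊δ * n⌋₊ (⌊δ * n⌋₊ - 1) := rows_marks (p := p) hQ hg hδ hδg hn
  rw [uI_frows]
  refine PT_frame (Zr := fun _ _ => 0) hrow hp hD hQ hb' (by omega) (by omega) hn' hω
    (fun e he he' => hole_hB hp hD hQ hg hδ hδg hn hR he he') ?_ (flow_in hfl hκ₀)
  rintro e ⟨k, hk⟩
  obtain ⟨ℓ, hℓ, heℓ⟩ := hω e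
  obtain ⟨x, hx⟩ := hc ℓ hℓ ⟨_, loop_iter hℓ heℓ k, hk⟩
  exact box_flow hp hD hQ hn' hfl (R := R') hR'
    (Or.inl (hx (hdv e) (mem_image_of_mem hdv heℓ)))

end Vale.Agent.P167.Enl
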